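import Mathlib

/-!
# P123 (Crouzeix), helper95 backup piece: the numerical range of `V† + γ V`

For an isometry `V` (`V† V = 1`) that is not unitary, every `w` in the open unit disc is an
eigenvalue of `V†`, and a unit eigenvector `x` gives the numerical-range point
`⟪x, (V† + γ V) x⟫ = w + γ conj w`.  Hence a bound for a polynomial on the numerical range
passes to the boundary curve `conj z + γ z`, `|z| = 1`.
-/

namespace Vale.Agent.Lib.P123.H95

open ContinuousLinearMap

variable {H : Type*} [NormedAddCommGroup H] [InnerProductSpace ℂ H] [CompleteSpace H]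

/-- An isometry has operator norm at most one. -/
theorem norm_le_one_of_isometry (V : H →L[ℂ] H) (hV : adjoint V * V = 1) : ‖V‖ ≤ 1 := by
  have hnorm : ∀ x, ‖V x‖ = ‖x‖ := (norm_map_iff_adjoint_comp_self V).mpr hV
  refine ContinuousLinearMap.opNorm_le_bound V zero_le_one (fun x => ?_)
  rw [hnorm x, one_mul]

/-- Every `w` in the open unit disc is an eigenvalue of the adjoint of a non-unitary isometry,
with a unit eigenvector. -/
theorem exists_eigvec (V : H →L[ℂ] H) (hV : adjoint V * V = 1) (hVV : V * adjoint V ≠ 1)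
    (w : ℂ) (hw : ‖w‖ < 1) : ∃ x : H, ‖x‖ = 1 ∧ adjoint V x = w • x := by
  have hV' : ∀ y, adjoint V (V y) = y := fun y => by
    have := congrArg (fun T : H →L[ℂ] H => T y) hV
    simpa using this
  -- a nonzero vector killed by the adjoint
  obtain ⟨u, hu⟩ : ∃ u : H, V (adjoint V u) ≠ u := by
    by_contra hcon
    push Not at hcon
    apply hVV
    ext y
    simpa using hcon y
  set e0 : H := u - V (adjoint V u) with he0
  have he0_ne : e0 ≠ 0 := by
    intro h
    apply hu
    have : u - V (adjoint V u) = 0 := h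
    exact (sub_eq_zero.mp this).symm
  have he0_ker : adjoint V e0 = 0 := by
    rw [he0, map_sub, hV']
    simp
  -- invert `1 - w V`
  have hnorm : ‖w • V‖ < 1 := by
    calc ‖w • V‖ = ‖w‖ * ‖V‖ := norm_smul w V
      _ ≤ ‖w‖ * 1 := by
          exact mul_le_mul_of_nonneg_left (norm_le_one_of_isometry V hV) (norm_nonneg w)
      _ < 1 := by simpa using hw
  obtain ⟨T, hT⟩ := (isUnit_one_sub_of_norm_lt_one hnorm).exists_right_inv
  set x0 : H := T e0 with hx0
  have hx0_eq : x0 - w • V x0 = e0 := by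
    have := congrArg (fun S : H →L[ℂ] H => S e0) hT
    simpa [hx0] using this
  have hx0_ne : x0 ≠ 0 := by
    intro h
    apply he0_ne
    rw [← hx0_eq, h]
    simp
  have hx0_eig : adjoint V x0 = w • x0 := by
    have h1 : x0 = e0 + w • V x0 := by
      rw [← hx0_eq]; abel
    calc adjoint V x0 = adjoint V (e0 + w • V x0) := by rw [← h1]
      _ = adjoint V e0 + w • adjoint V (V x0) := by rw [map_add, map_smul]
      _ = w • x0 := by rw [he0_ker, hV', zero_add]
  have hn : ‖x0‖ ≠ 0 := norm_ne_zero_iff.mpr hx0_ne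
  refine ⟨((‖x0‖⁻¹ : ℝ) : ℂ) • x0, ?_, ?_⟩
  · rw [norm_smul, Complex.norm_real, norm_inv, norm_norm, inv_mul_cancel₀ hn]
  · rw [map_smul, hx0_eig, smul_comm]

/-- The numerical range of `V† + γ V` contains `w + γ conj w` for every `w` in the open unit
disc (`inner ℂ x (A x)` is the problem's `⟨A x, x⟩`, linear in the first slot). -/
theorem numRange_mem (V : H →L[ℂ] H) (hV : adjoint V * V = 1) (hVV : V * adjoint V ≠ 1)
    (γ w : ℂ) (hw : ‖w‖ < 1) :
    ∃ x : H, ‖x‖ = 1 ∧
      inner ℂ x ((adjoint V + γ • V) x) = w + γ * (starRingEnd ℂ) w := by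
  obtain ⟨x, hx1, hx⟩ := exists_eigvec V hV hVV w hw
  refine ⟨x, hx1, ?_⟩
  have hxx : inner ℂ x x = 1 := by
    rw [inner_self_eq_norm_sq_to_K, hx1]; simp
  have h1 : inner ℂ x (adjoint V x) = w := by
    rw [hx, inner_smul_right, hxx, mul_one]
  have h2 : inner ℂ x (V x) = (starRingEnd ℂ) w := by
    rw [← adjoint_inner_left, hx, inner_smul_left, hxx, mul_one]
  simp only [add_apply, smul_apply, inner_add_right,
    inner_smul_right, h1, h2]

/-- A bound for `|p|` on the numerical range of `V† + γ V` passes to the curve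
`conj z + γ z`, `|z| = 1`. -/
theorem sup_transfer (V : H →L[ℂ] H) (hV : adjoint V * V = 1) (hVV : V * adjoint V ≠ 1)
    (γ : ℂ) (p : Polynomial ℂ) (M : ℝ)
    (hM : ∀ x : H, ‖x‖ = 1 → ‖p.eval (inner ℂ x ((adjoint V + γ • V) x))‖ ≤ M) :
    ∀ z : ℂ, ‖z‖ = 1 → ‖p.eval ((starRingEnd ℂ) z + γ * z)‖ ≤ M := by
  intro z hz
  set c : ℂ := (starRingEnd ℂ) z + γ * z with hc
  have hcont : Continuous (fun r : ℝ => ‖p.eval ((r : ℂ) * c)‖) := by
    have h1 : Continuous (fun r : ℝ => (r : ℂ) * c) :=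
      (Complex.continuous_ofReal).mul continuous_const
    exact (p.continuous.comp h1).norm
  have hlim : Filter.Tendsto (fun r : ℝ => ‖p.eval ((r : ℂ) * c)‖) (nhdsWithin 1 (Set.Iio 1))
      (nhds ‖p.eval (((1 : ℝ) : ℂ) * c)‖) :=
    (hcont.tendsto 1).mono_left nhdsWithin_le_nhds
  have hev : ∀ᶠ r : ℝ in nhdsWithin 1 (Set.Iio 1), ‖p.eval ((r : ℂ) * c)‖ ≤ M := by
    have hmem : Set.Ioo (0 : ℝ) 1 ∈ nhdsWithin (1 : ℝ) (Set.Iio 1) :=
      Ioo_mem_nhdsLT (by norm_num)
    filter_upwards [hmem] with r hr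
    have hw : ‖(r : ℂ) * (starRingEnd ℂ) z‖ < 1 := by
      rw [norm_mul, Complex.norm_real, RCLike.norm_conj, hz, mul_one, Real.norm_eq_abs,
        abs_of_pos hr.1]
      exact hr.2
    obtain ⟨x, hx1, hx⟩ := numRange_mem V hV hVV γ _ hw
    have hval : (r : ℂ) * (starRingEnd ℂ) z + γ * (starRingEnd ℂ) ((r : ℂ) * (starRingEnd ℂ) z)
        = (r : ℂ) * c := by
      rw [hc, map_mul, Complex.conj_ofReal, Complex.conj_conj]; ring
    have := hM x hx1
    rwa [hx, hval] at this
  have := le_of_tendsto hlim hev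
  simpa using this

end Vale.Agent.Lib.P123.H95
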