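import Mathlib
import Vale.Agent.Lib.P123.helper95.NumRange

/-!
# P123 (Crouzeix), helper95 backup closure: `A = V† + γ V`, `V` a non-unitary isometry

Independent formalization of helper41's theorem (report 1772) with the constant
`sqrt (1 + |γ|^2)`:  `‖p(A)‖ ≤ sqrt (1 + ‖γ‖^2) * sup_{W(A)} |p|`.

Route: the unitary `U = [[V, P], [0, V†]]` on the L2 sum `H ⊕ H` (`P = 1 - V V†`), the normal
operator `N = U† + γ U`, the operator `D = γ (P + V D V†)` (Banach fixed point), and the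
intertwiner `Ψ (y₁, y₂) = y₁ - D V† y₂`, `Ψ N = A Ψ`.
-/

namespace Vale.Agent.Lib.P123.H95

open ContinuousLinearMap Polynomial

section cfcbound

/-- Spectral theorem bound: for a unitary `U` of a C⋆-algebra and a polynomial `p`,
`‖p (U⋆ + γ U)‖` is at most the supremum of `|p|` over the curve `conj z + γ z`, `|z| = 1`. -/
theorem norm_aeval_le_of_unitary {A : Type*} [CStarAlgebra A] (U : A) (hU : U ∈ unitary A)
    (γ : ℂ) (p : Polynomial ℂ) (M : ℝ)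
    (hM : ∀ z : ℂ, ‖z‖ = 1 → ‖p.eval (star z + γ * z)‖ ≤ M) :
    ‖Polynomial.aeval (star U + γ • U) p‖ ≤ M := by
  have hM0 : 0 ≤ M := le_trans (norm_nonneg _) (hM 1 (by simp))
  have hn : IsStarNormal U := by
    refine ⟨?_⟩
    rw [commute_iff_eq, Unitary.star_mul_self_of_mem hU, Unitary.mul_star_self_of_mem hU]
  have h1 : cfc (fun z : ℂ => star z + γ * z) U = star U + γ • U := by
    rw [cfc_add U (fun z : ℂ => star z) (fun z : ℂ => γ * z), cfc_star_id U,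
      cfc_const_mul_id γ U]
  have h2 : Polynomial.aeval (star U + γ • U) p
      = cfc (fun z : ℂ => p.eval (star z + γ * z)) U := by
    rw [← h1, ← cfc_polynomial p (cfc (fun z : ℂ => star z + γ * z) U),
      ← cfc_comp' (fun x => p.eval x) (fun z : ℂ => star z + γ * z) U]
  rw [h2]
  apply norm_cfc_le hM0
  intro x hx
  have hx' : x ∈ Metric.sphere (0 : ℂ) 1 := spectrum.subset_circle_of_unitary hU hx
  exact hM x (by simpa using hx')

end cfcbound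

section abstract

variable {H K : Type*} [NormedAddCommGroup H] [NormedSpace ℂ H]
  [NormedAddCommGroup K] [NormedSpace ℂ K]

theorem intertwine_pow (A : H →L[ℂ] H) (N : K →L[ℂ] K) (Ψ : K →L[ℂ] H)
    (h : Ψ ∘L N = A ∘L Ψ) (i : ℕ) : Ψ ∘L (N ^ i) = (A ^ i) ∘L Ψ := by
  induction i with
  | zero => ext y; simp
  | succ i ih =>
    rw [pow_succ, pow_succ, mul_def, mul_def, ← ContinuousLinearMap.comp_assoc, ih,
      ContinuousLinearMap.comp_assoc, h, ← ContinuousLinearMap.comp_assoc]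

theorem intertwine_aeval (A : H →L[ℂ] H) (N : K →L[ℂ] K) (Ψ : K →L[ℂ] H)
    (h : Ψ ∘L N = A ∘L Ψ) (p : Polynomial ℂ) (y : K) :
    Ψ (Polynomial.aeval N p y) = Polynomial.aeval A p (Ψ y) := by
  rw [Polynomial.aeval_eq_sum_range, Polynomial.aeval_eq_sum_range]
  simp only [sum_apply, smul_apply, map_sum, map_smul]
  refine Finset.sum_congr rfl (fun i _ => ?_)
  have h1 := congrArg (fun T : K →L[ℂ] H => T y) (intertwine_pow A N Ψ h i)
  simp only [comp_apply] at h1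
  rw [h1]

/-- If `A` is a quotient of `N` through an intertwiner `Ψ` of norm at most `c` with an
isometric right inverse, then `‖p(A)‖ ≤ c ‖p(N)‖`. -/
theorem norm_aeval_le_of_dilation (A : H →L[ℂ] H) (N : K →L[ℂ] K) (Ψ : K →L[ℂ] H)
    (ι : H →L[ℂ] K) (c M : ℝ) (p : Polynomial ℂ) (h : Ψ ∘L N = A ∘L Ψ)
    (hι : ∀ x, Ψ (ι x) = x) (hιn : ∀ x, ‖ι x‖ ≤ ‖x‖) (hc : 0 ≤ c)
    (hΨ : ∀ y, ‖Ψ y‖ ≤ c * ‖y‖) (hN : ‖Polynomial.aeval N p‖ ≤ M) :
    ‖Polynomial.aeval A p‖ ≤ c * M := by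
  have hM0 : 0 ≤ M := le_trans (norm_nonneg _) hN
  refine opNorm_le_bound _ (mul_nonneg hc hM0) (fun x => ?_)
  have h1 : Polynomial.aeval A p x = Ψ (Polynomial.aeval N p (ι x)) := by
    rw [intertwine_aeval A N Ψ h, hι]
  rw [h1]
  calc ‖Ψ (Polynomial.aeval N p (ι x))‖ ≤ c * ‖Polynomial.aeval N p (ι x)‖ := hΨ _
    _ ≤ c * (‖Polynomial.aeval N p‖ * ‖ι x‖) :=
        mul_le_mul_of_nonneg_left (le_opNorm _ _) hc
    _ ≤ c * (M * ‖x‖) := by
        apply mul_le_mul_of_nonneg_left _ hc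
        exact mul_le_mul hN (hιn x) (norm_nonneg _) hM0
    _ = c * M * ‖x‖ := by ring

end abstract

section hilbert

variable {H : Type*} [NormedAddCommGroup H] [InnerProductSpace ℂ H] [CompleteSpace H]

theorem adjV_P (V : H →L[ℂ] H) (hV : adjoint V * V = 1) :
    adjoint V * (1 - V * adjoint V) = 0 := by
  rw [mul_sub, mul_one, ← mul_assoc, hV, one_mul, sub_self]

theorem P_V (V : H →L[ℂ] H) (hV : adjoint V * V = 1) :
    (1 - V * adjoint V) * V = 0 := by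
  rw [sub_mul, one_mul, mul_assoc, hV, mul_one, sub_self]

theorem P_P (V : H →L[ℂ] H) (hV : adjoint V * V = 1) :
    (1 - V * adjoint V) * (1 - V * adjoint V) = 1 - V * adjoint V := by
  rw [mul_sub, mul_one, ← mul_assoc, P_V V hV, zero_mul, sub_zero]

theorem adjV_P_apply (V : H →L[ℂ] H) (hV : adjoint V * V = 1) (x : H) :
    adjoint V ((1 - V * adjoint V) x) = 0 := by
  have h := congrArg (fun T : H →L[ℂ] H => T x) (adjV_P V hV)
  simpa using h

omit [CompleteSpace H] in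
theorem pyth (x y : H) (h : inner ℂ x y = 0) : ‖x + y‖ ^ 2 = ‖x‖ ^ 2 + ‖y‖ ^ 2 := by
  rw [@norm_add_sq ℂ, h]; simp

theorem norm_decomp (V : H →L[ℂ] H) (hV : adjoint V * V = 1) (x : H) :
    ‖x‖ ^ 2 = ‖(1 - V * adjoint V) x‖ ^ 2 + ‖adjoint V x‖ ^ 2 := by
  have hn : ∀ y, ‖V y‖ = ‖y‖ := (norm_map_iff_adjoint_comp_self V).mpr hV
  have h0 : inner ℂ ((1 - V * adjoint V) x) (V (adjoint V x)) = 0 := by
    rw [← adjoint_inner_left, adjV_P_apply V hV]; simp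
  have h1 := pyth _ _ h0
  rw [hn] at h1
  rw [← h1]
  congr 2
  simp

/-- The operator `D = γ (P + V D V†)`, `P = 1 - V V†`, with `‖D‖ ≤ ‖γ‖`. -/
theorem exists_D (V : H →L[ℂ] H) (hV : adjoint V * V = 1) (γ : ℂ) (hγ : ‖γ‖ < 1) :
    ∃ D : H →L[ℂ] H, D = γ • ((1 - V * adjoint V) + V * D * adjoint V) ∧ ‖D‖ ≤ ‖γ‖ := by
  have hV1 : ‖V‖ ≤ 1 := norm_le_one_of_isometry V hV
  have hV1' : ‖adjoint V‖ ≤ 1 := by
    rw [LinearIsometryEquiv.norm_map]; exact hV1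
  have hn : ∀ y, ‖V y‖ = ‖y‖ := (norm_map_iff_adjoint_comp_self V).mpr hV
  let f : (H →L[ℂ] H) → (H →L[ℂ] H) :=
    fun X => γ • ((1 - V * adjoint V) + V * X * adjoint V)
  have hf : ContractingWith ‖γ‖₊ f := by
    refine ⟨by exact_mod_cast hγ, LipschitzWith.of_dist_le_mul (fun X Y => ?_)⟩
    rw [dist_eq_norm, dist_eq_norm]
    have hsub : f X - f Y = γ • (V * (X - Y) * adjoint V) := by
      simp only [f]
      rw [← smul_sub]
      congr 1
      noncomm_ring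
    rw [hsub, norm_smul]
    have h2 : ‖V * (X - Y) * adjoint V‖ ≤ ‖X - Y‖ := by
      calc ‖V * (X - Y) * adjoint V‖ ≤ ‖V * (X - Y)‖ * ‖adjoint V‖ := norm_mul_le _ _
        _ ≤ (‖V‖ * ‖X - Y‖) * ‖adjoint V‖ :=
            mul_le_mul_of_nonneg_right (norm_mul_le _ _) (norm_nonneg _)
        _ ≤ (1 * ‖X - Y‖) * 1 := by
            apply mul_le_mul _ hV1' (norm_nonneg _) (by positivity)
            exact mul_le_mul_of_nonneg_right hV1 (norm_nonneg _)
        _ = ‖X - Y‖ := by ring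
    simpa using mul_le_mul_of_nonneg_left h2 (norm_nonneg γ)
  obtain ⟨D, hD⟩ : ∃ D, f D = D := ⟨_, hf.fixedPoint_isFixedPt⟩
  have hD' : D = γ • ((1 - V * adjoint V) + V * D * adjoint V) := hD.symm
  refine ⟨D, hD', ?_⟩
  have hbound : ∀ x, ‖((1 - V * adjoint V) + V * D * adjoint V) x‖ ≤ max 1 ‖D‖ * ‖x‖ := by
    intro x
    have h0 : inner ℂ ((1 - V * adjoint V) x) (V (D (adjoint V x))) = 0 := by
      rw [← adjoint_inner_left, adjV_P_apply V hV]; simp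
    have h1 := pyth _ _ h0
    rw [hn] at h1
    have h2 := norm_decomp V hV x
    have h3 : ‖D (adjoint V x)‖ ≤ ‖D‖ * ‖adjoint V x‖ := le_opNorm _ _
    have hm1 : 1 ≤ max 1 ‖D‖ := le_max_left _ _
    have hm2 : ‖D‖ ≤ max 1 ‖D‖ := le_max_right _ _
    have hm0 : 0 ≤ max 1 ‖D‖ := le_trans zero_le_one hm1
    have e1 : ((1 - V * adjoint V) + V * D * adjoint V) x
        = (1 - V * adjoint V) x + V (D (adjoint V x)) := by simp
    have a1 : ‖(1 - V * adjoint V) x‖ ^ 2 ≤ max 1 ‖D‖ ^ 2 * ‖(1 - V * adjoint V) x‖ ^ 2 := by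
      have : (1 : ℝ) ≤ max 1 ‖D‖ ^ 2 := one_le_pow₀ hm1
      nlinarith [sq_nonneg ‖(1 - V * adjoint V) x‖]
    have a2 : ‖D (adjoint V x)‖ ^ 2 ≤ max 1 ‖D‖ ^ 2 * ‖adjoint V x‖ ^ 2 := by
      calc ‖D (adjoint V x)‖ ^ 2 ≤ (‖D‖ * ‖adjoint V x‖) ^ 2 :=
            pow_le_pow_left₀ (norm_nonneg _) h3 2
        _ ≤ (max 1 ‖D‖ * ‖adjoint V x‖) ^ 2 :=
            pow_le_pow_left₀ (by positivity)
              (mul_le_mul_of_nonneg_right hm2 (norm_nonneg _)) 2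
        _ = max 1 ‖D‖ ^ 2 * ‖adjoint V x‖ ^ 2 := by ring
    have hsq : ‖((1 - V * adjoint V) + V * D * adjoint V) x‖ ^ 2 ≤ (max 1 ‖D‖ * ‖x‖) ^ 2 := by
      rw [e1, h1, mul_pow, h2]
      linarith
    exact le_of_sq_le_sq hsq (mul_nonneg hm0 (norm_nonneg _))
  have hnorm : ‖(1 - V * adjoint V) + V * D * adjoint V‖ ≤ max 1 ‖D‖ :=
    opNorm_le_bound _ (le_trans zero_le_one (le_max_left _ _)) hbound
  have hd : ‖D‖ ≤ ‖γ‖ * max 1 ‖D‖ := by
    calc ‖D‖ = ‖γ • ((1 - V * adjoint V) + V * D * adjoint V)‖ := by rw [← hD']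
      _ = ‖γ‖ * ‖(1 - V * adjoint V) + V * D * adjoint V‖ := norm_smul _ _
      _ ≤ ‖γ‖ * max 1 ‖D‖ := mul_le_mul_of_nonneg_left hnorm (norm_nonneg _)
  by_cases h1 : ‖D‖ ≤ 1
  · rw [max_eq_left h1] at hd; simpa using hd
  · push Not at h1
    rw [max_eq_right h1.le] at hd
    nlinarith [norm_nonneg γ]

end hilbert

end Vale.Agent.Lib.P123.H95
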