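import Mathlib
import Vale.Agent.Lib.P123.helper95.Dilation

/-!
# P123 (Crouzeix), helper95 backup closure: the block unitary and the main theorem
-/

namespace Vale.Agent.Lib.P123.H95

open ContinuousLinearMap

section blocks

variable {H : Type*} [NormedAddCommGroup H] [InnerProductSpace ℂ H]

/-- first component on the L2 sum `H ⊕ H` -/
noncomputable def fstK : WithLp 2 (H × H) →L[ℂ] H := WithLp.fstL 2 ℂ H H

/-- second component on the L2 sum `H ⊕ H` -/
noncomputable def sndK : WithLp 2 (H × H) →L[ℂ] H := WithLp.sndL 2 ℂ H H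

/-- the pairing map into the L2 sum `H ⊕ H` -/
noncomputable def mkK : H × H →L[ℂ] WithLp 2 (H × H) :=
  ((WithLp.prodContinuousLinearEquiv 2 ℂ H H).symm : H × H →L[ℂ] WithLp 2 (H × H))

/-- block operator on the L2 sum, sending the pair x, y to the pair a x + b y, c x + d y -/
noncomputable def blk (a b c d : H →L[ℂ] H) : WithLp 2 (H × H) →L[ℂ] WithLp 2 (H × H) :=
  mkK ∘L ((a ∘L fstK + b ∘L sndK).prod (c ∘L fstK + d ∘L sndK))

theorem fstK_mkK (x y : H) : fstK (mkK (x, y)) = x := rfl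

theorem sndK_mkK (x y : H) : sndK (mkK (x, y)) = y := rfl

theorem fstK_blk (a b c d : H →L[ℂ] H) (z : WithLp 2 (H × H)) :
    fstK (blk a b c d z) = a (fstK z) + b (sndK z) := rfl

theorem sndK_blk (a b c d : H →L[ℂ] H) (z : WithLp 2 (H × H)) :
    sndK (blk a b c d z) = c (fstK z) + d (sndK z) := rfl

theorem extK (z w : WithLp 2 (H × H)) (h1 : fstK z = fstK w) (h2 : sndK z = sndK w) :
    z = w := by
  have h : WithLp.ofLp z = WithLp.ofLp w := Prod.ext h1 h2
  exact WithLp.ofLp_injective 2 h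

theorem innerK (z w : WithLp 2 (H × H)) :
    inner ℂ z w = inner ℂ (fstK z) (fstK w) + inner ℂ (sndK z) (sndK w) := rfl

theorem normK_sq (z : WithLp 2 (H × H)) : ‖z‖ ^ 2 = ‖fstK z‖ ^ 2 + ‖sndK z‖ ^ 2 :=
  WithLp.prod_norm_sq_eq_of_L2 z

theorem blk_mul (a b c d a' b' c' d' : H →L[ℂ] H) :
    blk a b c d * blk a' b' c' d'
      = blk (a * a' + b * c') (a * b' + b * d') (c * a' + d * c') (c * b' + d * d') := by
  refine ContinuousLinearMap.ext fun z => extK _ _ ?_ ?_
  · have h : (blk a b c d * blk a' b' c' d') z = blk a b c d (blk a' b' c' d' z) := rfl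
    rw [h, fstK_blk, fstK_blk, sndK_blk, fstK_blk]
    simp only [map_add, add_apply]
    have e1 : ∀ (f g : H →L[ℂ] H) (x : H), (f * g) x = f (g x) := fun _ _ _ => rfl
    rw [e1, e1, e1, e1]
    abel
  · have h : (blk a b c d * blk a' b' c' d') z = blk a b c d (blk a' b' c' d' z) := rfl
    rw [h, sndK_blk, fstK_blk, sndK_blk, sndK_blk]
    simp only [map_add, add_apply]
    have e1 : ∀ (f g : H →L[ℂ] H) (x : H), (f * g) x = f (g x) := fun _ _ _ => rfl
    rw [e1, e1, e1, e1]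
    abel

theorem blk_one : blk (1 : H →L[ℂ] H) 0 0 1 = 1 := by
  refine ContinuousLinearMap.ext fun z => extK _ _ ?_ ?_
  · rw [fstK_blk]; simp
  · rw [sndK_blk]; simp

theorem blk_adjoint [CompleteSpace H] (a b c d : H →L[ℂ] H) :
    adjoint (blk a b c d) = blk (adjoint a) (adjoint c) (adjoint b) (adjoint d) := by
  symm
  rw [eq_adjoint_iff]
  intro x y
  rw [innerK, innerK, fstK_blk, sndK_blk, fstK_blk, sndK_blk]
  simp only [inner_add_left, inner_add_right, adjoint_inner_left]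
  ring

end blocks

section main

variable {H : Type*} [NormedAddCommGroup H] [InnerProductSpace ℂ H] [CompleteSpace H]

/-- **Crouzeix's inequality for `A = V† + γ V`** with `V` a non-unitary isometry and `|γ| < 1`,
with constant `sqrt (1 + |γ|^2) < sqrt 2`: if `|p| ≤ M` on the numerical range of `A`
(the points `⟨A x, x⟩`, `‖x‖ = 1`, written `inner ℂ x (A x)` in Mathlib), then
`‖p(A)‖ ≤ sqrt (1 + |γ|^2) * M`. -/
theorem crouzeix_isometry (V : H →L[ℂ] H) (hV : adjoint V * V = 1) (hVV : V * adjoint V ≠ 1)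
    (γ : ℂ) (hγ : ‖γ‖ < 1) (p : Polynomial ℂ) (M : ℝ)
    (hM : ∀ x : H, ‖x‖ = 1 → ‖p.eval (inner ℂ x ((adjoint V + γ • V) x))‖ ≤ M) :
    ‖Polynomial.aeval (adjoint V + γ • V) p‖ ≤ Real.sqrt (1 + ‖γ‖ ^ 2) * M := by
  obtain ⟨D, hD, hDn⟩ := exists_D V hV γ hγ
  have hV1' : ‖adjoint V‖ ≤ 1 := by
    rw [LinearIsometryEquiv.norm_map]; exact norm_le_one_of_isometry V hV
  set P : H →L[ℂ] H := 1 - V * adjoint V with hP
  have hVP : adjoint V * P = 0 := adjV_P V hV
  have hPV : P * V = 0 := P_V V hV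
  have hPP : P * P = P := P_P V hV
  have hVVP : V * adjoint V + P = 1 := by rw [hP]; abel
  have hPadj : adjoint P = P := by
    rw [hP, map_sub, mul_def, adjoint_comp, adjoint_adjoint]
    congr 1
    exact (eq_adjoint_iff _ _).mpr (fun x y => rfl) |>.symm
  -- the operator `G = D V†` and the Sylvester identity
  set G : H →L[ℂ] H := D * adjoint V with hG
  have hVD : adjoint V * D = γ • (D * adjoint V) := by
    calc adjoint V * D = adjoint V * (γ • (P + V * D * adjoint V)) := by rw [← hD]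
      _ = γ • (adjoint V * P + (adjoint V * V) * D * adjoint V) := by
          rw [mul_smul_comm, mul_add]
          congr 2
      _ = γ • (D * adjoint V) := by rw [hVP, hV, zero_add, one_mul]
  have hGP : G * P = 0 := by rw [hG, mul_assoc, hVP, mul_zero]
  have hGV : G * V = D := by rw [hG, mul_assoc, hV, mul_one]
  have hSyl : γ • P - G * V - γ • (G * adjoint V) = -((adjoint V + γ • V) * G) := by
    rw [hGV, hG]
    have e1 : (adjoint V + γ • V) * (D * adjoint V)
        = γ • (D * adjoint V * adjoint V) + γ • (V * D * adjoint V) := by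
      rw [add_mul, ← mul_assoc, hVD, smul_mul_assoc, smul_mul_assoc, mul_assoc V]
    have e2 : D = γ • P + γ • (V * D * adjoint V) := by rw [← smul_add]; exact hD
    have e3 : γ • P - D - γ • (D * adjoint V * adjoint V)
        = γ • P - (γ • P + γ • (V * D * adjoint V)) - γ • (D * adjoint V * adjoint V) := by
      rw [← e2]
    rw [e1, e3]
    abel
  -- the unitary
  set U : WithLp 2 (H × H) →L[ℂ] WithLp 2 (H × H) := blk V P 0 (adjoint V) with hU
  set U' : WithLp 2 (H × H) →L[ℂ] WithLp 2 (H × H) := blk (adjoint V) 0 P V with hU'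
  have hU'U : U' * U = 1 := by
    rw [hU, hU', blk_mul]
    simp only [mul_zero, zero_mul, add_zero, hV, hVP, hPV, hPP]
    rw [show P + V * adjoint V = 1 from by rw [add_comm]; exact hVVP]
    exact blk_one
  have hUU' : U * U' = 1 := by
    rw [hU, hU', blk_mul]
    simp only [mul_zero, zero_mul, add_zero, zero_add, hV, hVP, hPV, hPP, hVVP]
    exact blk_one
  have hstar : star U = U' := by
    rw [star_eq_adjoint, hU, blk_adjoint, hPadj, adjoint_adjoint, map_zero]
  have hUmem : U ∈ unitary (WithLp 2 (H × H) →L[ℂ] WithLp 2 (H × H)) := by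
    rw [Unitary.mem_iff, hstar]; exact ⟨hU'U, hUU'⟩
  -- the intertwiner
  set Ψ : WithLp 2 (H × H) →L[ℂ] H := fstK - G ∘L sndK with hΨ
  set ι : H →L[ℂ] WithLp 2 (H × H) := mkK ∘L (ContinuousLinearMap.inl ℂ H H) with hι
  have hint : Ψ ∘L (star U + γ • U) = (adjoint V + γ • V) ∘L Ψ := by
    rw [hstar]
    refine ContinuousLinearMap.ext fun z => ?_
    have k1 : G (P (fstK z)) = 0 := by
      have h := congrArg (fun T : H →L[ℂ] H => T (fstK z)) hGP
      simpa using h
    have k2 : γ • P (sndK z) - G (V (sndK z)) - γ • G (adjoint V (sndK z))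
        = -(adjoint V (G (sndK z)) + γ • V (G (sndK z))) := by
      have h := congrArg (fun T : H →L[ℂ] H => T (sndK z)) hSyl
      simpa using h
    have l1 : Ψ ((U' + γ • U) z)
        = fstK (U' z) + γ • fstK (U z) - G (sndK (U' z) + γ • sndK (U z)) := by
      simp [hΨ]
    have l2 : ((adjoint V + γ • V) ∘L Ψ) z
        = adjoint V (fstK z - G (sndK z)) + γ • V (fstK z - G (sndK z)) := by
      simp [hΨ]
      rw [smul_sub]
      abel
    rw [comp_apply, l1, l2, hU, hU', fstK_blk, fstK_blk, sndK_blk, sndK_blk]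
    simp only [zero_apply, add_zero, zero_add, map_add, map_sub, map_smul, smul_add, smul_sub,
      k1]
    rw [← sub_eq_zero]
    have e : adjoint V (fstK z) + (γ • V (fstK z) + γ • P (sndK z))
          - (G (V (sndK z)) + γ • G (adjoint V (sndK z)))
          - (adjoint V (fstK z) - adjoint V (G (sndK z))
              + (γ • V (fstK z) - γ • V (G (sndK z))))
        = (γ • P (sndK z) - G (V (sndK z)) - γ • G (adjoint V (sndK z)))
          + (adjoint V (G (sndK z)) + γ • V (G (sndK z))) := by abel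
    rw [e, k2]
    abel
  have hιΨ : ∀ x, Ψ (ι x) = x := by
    intro x
    simp [hΨ, hι, fstK_mkK, sndK_mkK]
  have hιn : ∀ x, ‖ι x‖ ≤ ‖x‖ := by
    intro x
    have h : ‖ι x‖ ^ 2 = ‖x‖ ^ 2 := by
      rw [normK_sq]
      simp [hι, fstK_mkK, sndK_mkK]
    exact le_of_sq_le_sq (le_of_eq h) (norm_nonneg _)
  have hGn : ‖G‖ ≤ ‖γ‖ := by
    calc ‖G‖ ≤ ‖D‖ * ‖adjoint V‖ := norm_mul_le _ _
      _ ≤ ‖γ‖ * 1 := mul_le_mul hDn hV1' (norm_nonneg _) (norm_nonneg _)
      _ = ‖γ‖ := mul_one _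
  have hΨn : ∀ y, ‖Ψ y‖ ≤ Real.sqrt (1 + ‖γ‖ ^ 2) * ‖y‖ := by
    intro y
    have h1 : ‖Ψ y‖ ≤ ‖fstK y‖ + ‖γ‖ * ‖sndK y‖ := by
      have h0 : Ψ y = fstK y - G (sndK y) := by simp [hΨ]
      have ha := le_opNorm G (sndK y)
      have hb := mul_le_mul_of_nonneg_right hGn (norm_nonneg (sndK y))
      calc ‖Ψ y‖ = ‖fstK y - G (sndK y)‖ := by rw [h0]
        _ ≤ ‖fstK y‖ + ‖G (sndK y)‖ := norm_sub_le _ _
        _ ≤ ‖fstK y‖ + ‖γ‖ * ‖sndK y‖ := by linarith
    have h2 : (‖fstK y‖ + ‖γ‖ * ‖sndK y‖) ^ 2 ≤ (1 + ‖γ‖ ^ 2) * ‖y‖ ^ 2 := by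
      rw [normK_sq]
      nlinarith [sq_nonneg (‖γ‖ * ‖fstK y‖ - ‖sndK y‖)]
    have h3 : ‖Ψ y‖ ^ 2 ≤ (1 + ‖γ‖ ^ 2) * ‖y‖ ^ 2 :=
      le_trans (pow_le_pow_left₀ (norm_nonneg _) h1 2) h2
    have h4 : Real.sqrt (1 + ‖γ‖ ^ 2) * ‖y‖ = Real.sqrt ((1 + ‖γ‖ ^ 2) * ‖y‖ ^ 2) := by
      rw [Real.sqrt_mul (by positivity), Real.sqrt_sq (norm_nonneg _)]
    rw [h4]
    exact Real.le_sqrt_of_sq_le h3
  -- conclusion
  have hcurve := sup_transfer V hV hVV γ p M hM
  have hN : ‖Polynomial.aeval (star U + γ • U) p‖ ≤ M :=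
    norm_aeval_le_of_unitary U hUmem γ p M (fun z hz => by simpa using hcurve z hz)
  exact norm_aeval_le_of_dilation (adjoint V + γ • V) (star U + γ • U) Ψ ι _ M p hint hιΨ hιn
    (Real.sqrt_nonneg _) hΨn hN

end main

end Vale.Agent.Lib.P123.H95
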